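import Vale.Agent.P205F.Assembled2
import Vale.Agent.P205F.Expand.Final
import Vale.Agent.P205F.Crest.KeepTwist
import Vale.Agent.P205F.GoodProb.GoodMain
import Vale.Agent.P205F.NashMoser.Main

/-!
Every closed smooth Riemannian surface has a smooth isometric immersion into `ℝ⁴`.
-/

namespace Vale.Agent.Results.P205.ClosedSurfaceImmersion

open scoped Manifold ContDiff

universe u

section

variable {E : Type} [NormedAddCommGroup E] [NormedSpace ℝ E] {H : Type} [TopologicalSpace H]
  (I : ModelWithCorners ℝ E H) {M : Type u} [TopologicalSpace M] [ChartedSpace H M]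
  {E' : Type} [NormedAddCommGroup E'] [InnerProductSpace ℝ E']

/-- `⟪dF_p v, dF_p w⟫`. -/
noncomputable def pullback (F : M → E') (p : M) (v w : TangentSpace I p) : ℝ :=
  @inner ℝ E' _ (mfderiv I (modelWithCornersSelf ℝ E') F p v)
    (mfderiv I (modelWithCornersSelf ℝ E') F p w)

variable [IsManifold I ∞ M]

/-- A smooth Riemannian metric, as Mathlib defines it. -/
abbrev SmoothMetric (M : Type u) [TopologicalSpace M] [ChartedSpace H M] [IsManifold I ∞ M] :
    Type u :=
  Bundle.ContMDiffRiemannianMetric I ∞ E (fun p : M => TangentSpace I p)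

/-- A smooth map into `E'` pulling the inner product back to `g`. -/
def HasIsometricImmersion (E' : Type) [NormedAddCommGroup E'] [InnerProductSpace ℝ E']
    (g : SmoothMetric I M) : Prop :=
  ∃ F : M → E', ContMDiff I (modelWithCornersSelf ℝ E') ∞ F ∧
    ∀ (p : M) (v w : TangentSpace I p), pullback I F p v w = g.inner p v w

end

theorem result : ∀ (M : Type u) [TopologicalSpace M] [T2Space M] [CompactSpace M]
    [ChartedSpace (EuclideanSpace ℝ (Fin 2)) M] [IsManifold (𝓡 2) ∞ M] (g : SmoothMetric (𝓡 2) M),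
    HasIsometricImmersion (𝓡 2) (EuclideanSpace ℝ (Fin 4)) g :=
  Vale.Agent.P205F.isomStmt_of_expand Vale.Agent.P205F.Expand.expandStmt
    (Vale.Agent.P205F.Crest.keepTwistStmt Vale.Agent.P205F.Expand.expandKeepStmt
      (Vale.Agent.P205F.goodProbStmt false) Vale.Agent.P205F.transposeStmt
      Vale.Agent.P205F.gdChartStmt Vale.Agent.P205F.NM.nmStmt)
    Vale.Agent.P205F.goodProbStmt

end Vale.Agent.Results.P205.ClosedSurfaceImmersion
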